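import Vale.Agent.P174.Bdl.All

set_option linter.all false

/-!
The degree of a word map with nonsingular exponent matrix is nonzero.
-/

namespace Vale.Agent.P174.H881

open Vale.Agent.P174
open Matrix Finset MvPolynomial MeasureTheory

section Spec

variable {J P : Type*} {N : ℕ}

/-- specialization of the parameters -/
noncomputable def spec (ρ : P → UU N) : PP (J ⊕ P) N →+* PP J N :=
  (aeval (R := ℂ) (fun x : (J ⊕ P) × Bool × Fin N × Fin N =>
    Sum.elim (fun j => (X (j, x.2) : PP J N))
      (fun p => C (if x.2.1 then (ρ p : Mat N) x.2.2.1 x.2.2.2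
        else (((ρ p)⁻¹ : UU N) : Mat N) x.2.2.1 x.2.2.2)) x.1)).toRingHom

lemma ev_spec (ρ : P → UU N) (t : J → UU N) (f : PP (J ⊕ P) N) :
    ev t (spec ρ f) = ev (Sum.elim t ρ) f := by
  induction f using MvPolynomial.induction_on with
  | C a =>
    have h : (spec ρ (C a) : PP J N) = C a := by
      simp only [spec, AlgHom.toRingHom_eq_coe, RingHom.coe_coe, algHom_C, algebraMap_eq]
    rw [h, ev_C, ev_C]
  | add f g hf hg => simp only [map_add, hf, hg]
  | mul_X f x hf =>
    rw [map_mul, map_mul, map_mul, hf]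
    congr 1
    obtain ⟨v, b, p, q⟩ := x
    rcases v with j | p'
    · have h : (spec ρ (X (Sum.inl j, b, p, q)) : PP J N) = X (j, b, p, q) := by
        simp only [spec, AlgHom.toRingHom_eq_coe, RingHom.coe_coe, aeval_X, Sum.elim_inl]
      rw [h]
      simp only [ev, eval_X, Sum.elim_inl]
    · have h : (spec ρ (X (Sum.inr p', b, p, q)) : PP J N)
          = C (if b then (ρ p' : Mat N) p q else (((ρ p')⁻¹ : UU N) : Mat N) p q) := by
        simp only [spec, AlgHom.toRingHom_eq_coe, RingHom.coe_coe, aeval_X, Sum.elim_inr]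
      rw [h, ev_C]
      simp only [ev, eval_X, Sum.elim_inr]

end Spec

section Subst

variable {V V' : Type*} {N : ℕ}

lemma lift_subst (φ : FreeGroup V →* FreeGroup V') (t : V' → UU N) (u : FreeGroup V) :
    FreeGroup.lift t (φ u) = FreeGroup.lift (fun v => FreeGroup.lift t (φ (FreeGroup.of v))) u := by
  have : (FreeGroup.lift t).comp φ
      = FreeGroup.lift (fun v => FreeGroup.lift t (φ (FreeGroup.of v))) := by
    ext1 v
    simp only [MonoidHom.comp_apply, FreeGroup.lift_apply_of]
  exact DFunLike.congr_fun this u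

lemma fox_eq (t : V → UU N) (Y : V → Mat N) (u : FreeGroup V) :
    fox t Y u = ⟨fx t Y u, FreeGroup.lift t u⟩ := by
  apply TG.ext'
  · rfl
  · exact fox_u t Y u

lemma fx_subst (φ : FreeGroup V →* FreeGroup V') (t : V' → UU N) (Y : V' → Mat N)
    (u : FreeGroup V) :
    fx t Y (φ u) = fx (fun v => FreeGroup.lift t (φ (FreeGroup.of v)))
      (fun v => fx t Y (φ (FreeGroup.of v))) u := by
  have : (fox t Y).comp φ = fox (fun v => FreeGroup.lift t (φ (FreeGroup.of v)))
      (fun v => fx t Y (φ (FreeGroup.of v))) := by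
    ext1 v
    rw [MonoidHom.comp_apply, fox_of, fox_eq]
  exact congrArg (fun g : FreeGroup V →* TG N => (g u).x) this

end Subst

section Comp

variable {J P : Type*} {N : ℕ}

/-- the substitution homomorphism -/
noncomputable def sb (w' : J → FreeGroup (J ⊕ P)) : FreeGroup (J ⊕ P) →* FreeGroup (J ⊕ P) :=
  FreeGroup.lift (Sum.elim w' (fun p => FreeGroup.of (Sum.inr p)))

lemma sb_inl (w' : J → FreeGroup (J ⊕ P)) (j : J) : sb w' (FreeGroup.of (Sum.inl j)) = w' j := by
  simp [sb]

lemma sb_inr (w' : J → FreeGroup (J ⊕ P)) (p : P) :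
    sb w' (FreeGroup.of (Sum.inr p)) = FreeGroup.of (Sum.inr p) := by
  simp [sb]

/-- composition of word maps -/
noncomputable def cmp (w w' : J → FreeGroup (J ⊕ P)) : J → FreeGroup (J ⊕ P) :=
  fun i => sb w' (w i)

variable [Fintype J] [DecidableEq J]

lemma sb_elim (w' : J → FreeGroup (J ⊕ P)) (t : J → UU N) (ρ : P → UU N) :
    (fun v => FreeGroup.lift (Sum.elim t ρ) (sb w' (FreeGroup.of v)))
      = Sum.elim (val w' (Sum.elim t ρ)) ρ := by
  funext v
  rcases v with j | p
  · rw [sb_inl]; rfl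
  · rw [sb_inr, FreeGroup.lift_apply_of]; rfl

lemma sb_dir (w' : J → FreeGroup (J ⊕ P)) (t : J ⊕ P → UU N) (a : Ix J N) :
    (fun v => fx t (dir a) (sb w' (FreeGroup.of v)))
      = dirv (fun b => jacM w' t b a) := by
  funext v
  rcases v with j | p
  · rw [sb_inl]
    ext p q
    simp only [dirv, Sum.elim_inl, Matrix.of_apply, jacM]
  · rw [sb_inr, fx_of]
    rfl

lemma jacM_cmp (w w' : J → FreeGroup (J ⊕ P)) (t : J → UU N) (ρ : P → UU N) :
    jacM (cmp w w') (Sum.elim t ρ)
      = jacM w (Sum.elim (val w' (Sum.elim t ρ)) ρ) * jacM w' (Sum.elim t ρ) := by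
  ext c a
  rw [Matrix.mul_apply]
  have h1 : jacM (cmp w w') (Sum.elim t ρ) c a
      = fx (Sum.elim t ρ) (dir a) (sb w' (w c.1)) c.2.1 c.2.2 := rfl
  rw [h1, fx_subst, sb_elim, sb_dir, fx_dirv]
  refine Finset.sum_congr rfl fun b _ => ?_
  rw [mul_comm]
  rfl

theorem deg_cmp (w w' : J → FreeGroup (J ⊕ P)) (ρ : P → UU N) :
    deg (cmp w w') ρ = deg w' ρ * deg w ρ := by
  have h := invar w' ρ (spec ρ (Dpoly w).det)
  have e1 : ∀ t : J → UU N, ev (fun i => FreeGroup.lift (Sum.elim t ρ) (w' i))
      (spec ρ (Dpoly w).det) = (jacM w (Sum.elim (val w' (Sum.elim t ρ)) ρ)).det := by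
    intro t
    rw [ev_spec, ev_Dpoly_det]
    rfl
  have e2 : ∀ t : J → UU N, ev t (spec ρ (Dpoly w).det) = (jacM w (Sum.elim t ρ)).det := by
    intro t
    rw [ev_spec, ev_Dpoly_det]
  simp only [e1, e2] at h
  have h3 : deg (cmp w w') ρ = ∫ t : J → UU N, (jacM w (Sum.elim (val w' (Sum.elim t ρ)) ρ)).det
      * (jacM w' (Sum.elim t ρ)).det ∂(haarP (J → UU N)) := by
    unfold deg
    simp only [jacM_cmp, Matrix.det_mul]
  rw [h3, h]
  rfl

/-- exponent sums of a composition -/
lemma sumJ_cmp (w w' : J → FreeGroup (J ⊕ P)) (i k : J) :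
    Multiplicative.toAdd (sumJ k (cmp w w' i))
      = ∑ j, Multiplicative.toAdd (sumJ j (w i)) * Multiplicative.toAdd (sumJ k (w' j)) := by
  have key : ∀ u : FreeGroup (J ⊕ P), Multiplicative.toAdd (sumJ k (sb w' u))
      = ∑ j, Multiplicative.toAdd (sumJ j u) * Multiplicative.toAdd (sumJ k (w' j)) := by
    intro u
    have hof : ∀ v : J ⊕ P, Multiplicative.toAdd (sumJ k (sb w' (FreeGroup.of v)))
      = ∑ j, Multiplicative.toAdd (sumJ j (FreeGroup.of v))
        * Multiplicative.toAdd (sumJ k (w' j)) := by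
      rintro (i | p)
      · rw [sb_inl, Finset.sum_eq_single i]
        · simp [sumJ]
        · intro b _ hb
          simp [sumJ, Ne.symm hb]
        · intro h; exact absurd (Finset.mem_univ _) h
      · rw [sb_inr]
        simp [sumJ]
    induction u using FreeGroup.induction_on with
    | C1 => simp
    | of v => exact hof v
    | inv_of v _ =>
      rw [map_inv, map_inv, toAdd_inv, hof v, ← Finset.sum_neg_distrib]
      refine Finset.sum_congr rfl fun j _ => ?_
      rw [map_inv, toAdd_inv, neg_mul]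
    | mul x y hx hy =>
      rw [map_mul, map_mul, toAdd_mul, hx, hy, ← Finset.sum_add_distrib]
      refine Finset.sum_congr rfl fun j _ => ?_
      rw [map_mul, toAdd_mul, add_mul]
  exact key (w i)

lemma exists_word (b : J → ℤ) : ∃ u : FreeGroup (J ⊕ P),
    ∀ k, Multiplicative.toAdd (sumJ k u) = b k := by
  refine ⟨((Finset.univ : Finset J).toList.map
    (fun j => (FreeGroup.of (Sum.inl j : J ⊕ P)) ^ (b j))).prod, fun k => ?_⟩
  rw [map_list_prod, List.map_map, Finset.prod_map_toList, toAdd_prod, Finset.sum_eq_single k]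
  · simp [sumJ]
  · intro j _ hj
    simp [sumJ, hj]
  · intro h; exact absurd (Finset.mem_univ _) h

/-- the exponent matrix of a word map -/
noncomputable def eM (w : J → FreeGroup (J ⊕ P)) : Matrix J J ℤ :=
  Matrix.of fun i j => Multiplicative.toAdd (sumJ j (w i))

theorem deg_ne_zero (w : J → FreeGroup (J ⊕ P)) (ρ : P → UU N) (h : (eM w).det ≠ 0) :
    deg w ρ ≠ 0 := by
  classical
  set d : ℕ := (eM w).det.natAbs with hd
  have hd0 : 0 < d := Int.natAbs_pos.mpr h
  set B : Matrix J J ℤ := (eM w).det.sign • (eM w).adjugate with hB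
  have hAB : eM w * B = (d : ℤ) • (1 : Matrix J J ℤ) := by
    rw [hB, Matrix.mul_smul, Matrix.mul_adjugate, smul_smul, hd, Int.sign_mul_self_eq_natAbs]
  choose w' hw' using fun j => exists_word (P := P) (B j)
  have h1 : deg (cmp w w') ρ ≠ 0 := by
    rw [deg_eq (cmp w w') (fun j : J => (FreeGroup.of (Sum.inl j : J ⊕ P)) ^ d) ρ ρ]
    · exact deg_pow_ne_zero d hd0 ρ
    · intro i k
      apply Multiplicative.toAdd.injective
      rw [sumJ_cmp]
      have h2 : ∑ j, Multiplicative.toAdd (sumJ j (w i)) * Multiplicative.toAdd (sumJ k (w' j))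
          = (eM w * B) i k := by
        rw [Matrix.mul_apply]
        refine Finset.sum_congr rfl fun j _ => ?_
        rw [hw' j k]
        rfl
      rw [h2, hAB]
      by_cases hik : i = k
      · subst hik
        simp [sumJ]
      · simp [sumJ, hik]
  rw [deg_cmp] at h1
  exact right_ne_zero_of_mul h1

end Comp

end Vale.Agent.P174.H881
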