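import Vale.Agent.P174.T2.Iface
import Vale.Agent.P174.H881.DegW

/-! P174, package T2-DEGW in the form of the interface. -/

namespace Vale.Agent.P174.H881

open Vale.Agent.P174 Vale.Agent.P174.T2

theorem degW (J P : Type) [Fintype J] [DecidableEq J] : DegWStmt J P :=
  fun _ W ρ h => deg_ne_zero W ρ h

end Vale.Agent.P174.H881
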